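import Vale.Agent.Lib.P308.Claw

/-! P308: ratio of near-perfect to perfect matchings in connected claw-free graphs. -/

namespace Vale.Agent.Results.P308.ClawFreeRatio

open Vale.Agent.P308

theorem result : ∀ (V : Type) [Fintype V] [DecidableEq V] (G : SimpleGraph V)
    [DecidableRel G.Adj] (Δ k : ℕ), G.Connected → ClawFree G → (∀ x, G.degree x ≤ Δ) →
    (∀ u v, G.dist u v ≤ k + 1) →
    2 * nearPerf G ≤ Fintype.card V * ((Δ + 1) ^ k * perf G) ∧
    ∀ c : ℕ, (Δ + 1) ^ k ≤ Fintype.card V ^ c →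
      2 * nearPerf G ≤ Fintype.card V ^ (c + 1) * perf G := by
  intro V _ _ G _ Δ k hG hc hΔ hD
  have h := near_le hG hc Δ hΔ k hD
  refine ⟨h, fun c hk => h.trans ?_⟩
  calc Fintype.card V * ((Δ + 1) ^ k * perf G)
      ≤ Fintype.card V * (Fintype.card V ^ c * perf G) := by gcongr
    _ = Fintype.card V ^ (c + 1) * perf G := by ring

end Vale.Agent.Results.P308.ClawFreeRatio
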